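import Mathlib

/-!
Shared definitions for the bipartite (margin matrix) part of P335.

* `ip f g` : unnormalised inner product of real functions on a finite type.
* `cexp κ` : conditional expectation given the value of `κ` (uniform measure).
* `Mat m n`, `Om m n r c` : 0/1 matrices (given by row supports) with prescribed margins.
* `mask p x` : the rows of `x` outside the row set `p`.
* `R p` : resampling of the rows in `p` given all other rows.
* `swMat`, `IsSwitchIn`, `IsSwitch` : switches.
-/

namespace Vale.Agent.Lib.P335.Bip

open Finset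

/-- Unnormalised inner product of two real functions on a finite type. -/
def ip {Ω : Type*} [Fintype Ω] (f g : Ω → ℝ) : ℝ := ∑ x, f x * g x

/-- Conditional expectation (under the uniform measure) given the value of `κ`:
`cexp κ f x` is the average of `f` over the fibre `{y | κ y = κ x}`. -/
noncomputable def cexp {Ω K : Type*} [Fintype Ω] [DecidableEq K] (κ : Ω → K) :
    (Ω → ℝ) →ₗ[ℝ] (Ω → ℝ) where
  toFun f x := (∑ y ∈ univ.filter (fun y => κ y = κ x), f y) /
      ((univ.filter (fun y => κ y = κ x)).card : ℝ)
  map_add' f g := by
    funext x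
    simp only [Pi.add_apply, Finset.sum_add_distrib, add_div]
  map_smul' a f := by
    funext x
    simp only [Pi.smul_apply, smul_eq_mul, RingHom.id_apply, ← Finset.mul_sum, mul_div_assoc]

/-- 0/1 matrices with `m` rows and `n` columns, given by their row supports:
`x i` is the set of columns `j` whose entry `(i, j)` equals `1`. -/
abbrev Mat (m n : ℕ) : Type := Fin m → Finset (Fin n)

/-- The sum of column `j` of the matrix `x`. -/
def colSum {m n : ℕ} (x : Mat m n) (j : Fin n) : ℕ := (univ.filter (fun i => j ∈ x i)).card

/-- The 0/1 matrices with row sums `r` and column sums `c`. -/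
abbrev Om (m n : ℕ) (r : Fin m → ℕ) (c : Fin n → ℕ) : Type :=
  {x : Mat m n // (∀ i, (x i).card = r i) ∧ ∀ j, colSum x j = c j}

/-- The rows of `x` outside the row set `p` (the rows in `p` are blanked). -/
def mask {m n : ℕ} (p : Finset (Fin m)) (x : Mat m n) : Mat m n :=
  fun i => if i ∈ p then ∅ else x i

/-- Resampling the rows in `p` uniformly given all other rows:
conditional expectation given the rows outside `p`. -/
noncomputable def R {m n : ℕ} {r : Fin m → ℕ} {c : Fin n → ℕ} (p : Finset (Fin m)) :
    (Om m n r c → ℝ) →ₗ[ℝ] (Om m n r c → ℝ) :=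
  cexp (fun x : Om m n r c => mask p x.1)

/-- The matrix obtained from `x` by moving the entry `1` of row `i` from column `j` to
column `j'` and the entry `1` of row `i'` from column `j'` to column `j`. -/
def swMat {m n : ℕ} (x : Mat m n) (i i' : Fin m) (j j' : Fin n) : Mat m n :=
  Function.update (Function.update x i (insert j' ((x i).erase j))) i'
    (insert j ((x i').erase j'))

/-- `y` is obtained from `x` by a switch whose two rows lie in the row set `p`. -/
def IsSwitchIn {m n : ℕ} (p : Finset (Fin m)) (x y : Mat m n) : Prop :=
  ∃ i i' j j', i ∈ p ∧ i' ∈ p ∧ i ≠ i' ∧ j ≠ j' ∧ j ∈ x i ∧ j' ∉ x i ∧ j' ∈ x i' ∧ j ∉ x i' ∧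
    y = swMat x i i' j j'

/-- `y` is obtained from `x` by a switch. -/
def IsSwitch {m n : ℕ} (x y : Mat m n) : Prop := IsSwitchIn univ x y

end Vale.Agent.Lib.P335.Bip
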