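import Mathlib
import Vale.Agent.Lib.P335.helper26.BipDefs

/-!
Abstract toolkit for the bipartite part of P335: inner product `ip`, conditional
expectations `cexp`, an eigenvalue-to-quadratic-form lemma, the Knabe-type local-to-global
lemma for pair projections and the resulting gap statement.
-/

namespace Vale.Agent.Lib.P335.Bip

open Finset Matrix

section ipsec

variable {Ω : Type*} [Fintype Ω]

theorem ip_comm (f g : Ω → ℝ) : ip f g = ip g f := by
  unfold ip
  exact Finset.sum_congr rfl (fun x _ => mul_comm _ _)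

theorem ip_add_left (f g h : Ω → ℝ) : ip (f + g) h = ip f h + ip g h := by
  unfold ip
  rw [← Finset.sum_add_distrib]
  exact Finset.sum_congr rfl (fun x _ => by simp [add_mul])

theorem ip_add_right (f g h : Ω → ℝ) : ip f (g + h) = ip f g + ip f h := by
  rw [ip_comm, ip_add_left, ip_comm g, ip_comm h]

theorem ip_smul_left (a : ℝ) (f g : Ω → ℝ) : ip (a • f) g = a * ip f g := by
  unfold ip
  rw [Finset.mul_sum]
  exact Finset.sum_congr rfl (fun x _ => by simp [mul_assoc])

theorem ip_smul_right (a : ℝ) (f g : Ω → ℝ) : ip f (a • g) = a * ip f g := by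
  rw [ip_comm, ip_smul_left, ip_comm]

theorem ip_neg_left (f g : Ω → ℝ) : ip (-f) g = - ip f g := by
  unfold ip
  rw [← Finset.sum_neg_distrib]
  exact Finset.sum_congr rfl (fun x _ => by simp)

theorem ip_neg_right (f g : Ω → ℝ) : ip f (-g) = - ip f g := by
  rw [ip_comm, ip_neg_left, ip_comm]

theorem ip_sub_left (f g h : Ω → ℝ) : ip (f - g) h = ip f h - ip g h := by
  rw [sub_eq_add_neg, ip_add_left, ip_neg_left, sub_eq_add_neg]

theorem ip_sub_right (f g h : Ω → ℝ) : ip f (g - h) = ip f g - ip f h := by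
  rw [ip_comm, ip_sub_left, ip_comm g, ip_comm h]

theorem ip_zero_left (g : Ω → ℝ) : ip (0 : Ω → ℝ) g = 0 := by
  unfold ip
  simp

theorem ip_zero_right (f : Ω → ℝ) : ip f (0 : Ω → ℝ) = 0 := by
  unfold ip
  simp

theorem ip_sum_left {ι : Type*} (s : Finset ι) (f : ι → Ω → ℝ) (g : Ω → ℝ) :
    ip (∑ i ∈ s, f i) g = ∑ i ∈ s, ip (f i) g := by
  classical
  induction s using Finset.induction_on with
  | empty => simp [ip_zero_left]
  | insert a s ha ih => rw [Finset.sum_insert ha, Finset.sum_insert ha, ip_add_left, ih]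

theorem ip_sum_right {ι : Type*} (s : Finset ι) (f : Ω → ℝ) (g : ι → Ω → ℝ) :
    ip f (∑ i ∈ s, g i) = ∑ i ∈ s, ip f (g i) := by
  rw [ip_comm, ip_sum_left]
  exact Finset.sum_congr rfl (fun i _ => ip_comm _ _)

theorem ip_self_nonneg (f : Ω → ℝ) : 0 ≤ ip f f :=
  Finset.sum_nonneg (fun x _ => mul_self_nonneg _)

theorem ip_self_eq_zero {f : Ω → ℝ} : ip f f = 0 ↔ f = 0 := by
  constructor
  · intro h
    funext x
    have h2 := (Finset.sum_eq_zero_iff_of_nonneg (fun y _ => mul_self_nonneg (f y))).mp h x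
      (Finset.mem_univ x)
    simpa using h2
  · rintro rfl
    exact ip_zero_left _

theorem ip_eq_sum_sq (f : Ω → ℝ) : ip f f = ∑ x, f x ^ 2 := by
  unfold ip
  exact Finset.sum_congr rfl (fun x _ => by ring)

/-- Two functions with the same inner products against all test functions are equal. -/
theorem ext_ip {f g : Ω → ℝ} (h : ∀ u : Ω → ℝ, ip u f = ip u g) : f = g := by
  have h2 : ip (f - g) (f - g) = 0 := by
    rw [ip_sub_right, h (f - g), sub_self]
  have h3 := ip_self_eq_zero.mp h2
  exact sub_eq_zero.mp h3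

theorem ip_cauchy_schwarz (f g : Ω → ℝ) : ip f g ^ 2 ≤ ip f f * ip g g := by
  unfold ip
  have := Finset.sum_mul_sq_le_sq_mul_sq (univ : Finset Ω) f g
  calc (∑ x, f x * g x) ^ 2 ≤ (∑ x, f x ^ 2) * ∑ x, g x ^ 2 := this
    _ = (∑ x, f x * f x) * ∑ x, g x * g x := by
        congr 1 <;> exact Finset.sum_congr rfl (fun x _ => by ring)

end ipsec

section cexpsec

variable {Ω K : Type*} [Fintype Ω] [DecidableEq K] (κ : Ω → K)

theorem cexp_apply (f : Ω → ℝ) (x : Ω) :
    cexp κ f x = (∑ y ∈ univ.filter (fun y => κ y = κ x), f y) /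
      ((univ.filter (fun y => κ y = κ x)).card : ℝ) := rfl

theorem cexp_congr {x x' : Ω} (h : κ x = κ x') (f : Ω → ℝ) : cexp κ f x = cexp κ f x' := by
  rw [cexp_apply, cexp_apply, h]

theorem fib_card_pos (x : Ω) : 0 < ((univ.filter (fun y => κ y = κ x)).card : ℝ) := by
  have h : x ∈ univ.filter (fun y => κ y = κ x) := by simp
  exact_mod_cast Finset.card_pos.mpr ⟨x, h⟩

theorem cexp_symm (f g : Ω → ℝ) : ip f (cexp κ g) = ip (cexp κ f) g := by
  have h1 : ip f (cexp κ g) = ∑ x, ∑ y, if κ y = κ x then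
      f x * g y / ((univ.filter (fun z => κ z = κ x)).card : ℝ) else 0 := by
    unfold ip
    refine Finset.sum_congr rfl (fun x _ => ?_)
    rw [cexp_apply, Finset.sum_filter, mul_div_assoc', Finset.mul_sum, Finset.sum_div]
    refine Finset.sum_congr rfl (fun y _ => ?_)
    split_ifs <;> simp
  have h2 : ip (cexp κ f) g = ∑ y, ∑ x, if κ x = κ y then
      f x * g y / ((univ.filter (fun z => κ z = κ y)).card : ℝ) else 0 := by
    unfold ip
    refine Finset.sum_congr rfl (fun y _ => ?_)
    rw [cexp_apply, Finset.sum_filter, div_mul_eq_mul_div, Finset.sum_mul, Finset.sum_div]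
    refine Finset.sum_congr rfl (fun x _ => ?_)
    split_ifs <;> simp
  rw [h1, h2, Finset.sum_comm]
  refine Finset.sum_congr rfl (fun y _ => Finset.sum_congr rfl (fun x _ => ?_))
  by_cases hxy : κ x = κ y
  · rw [if_pos hxy, if_pos hxy.symm, hxy]
  · rw [if_neg hxy, if_neg (fun h => hxy h.symm)]

/-- A function that factors through `κ` is fixed by `cexp κ`. -/
theorem cexp_of_factor {f : Ω → ℝ} (hf : ∀ x y, κ x = κ y → f x = f y) : cexp κ f = f := by
  funext x
  rw [cexp_apply]
  have h : ∑ y ∈ univ.filter (fun y => κ y = κ x), f y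
      = ((univ.filter (fun y => κ y = κ x)).card : ℝ) * f x := by
    rw [Finset.sum_congr rfl (fun y hy => hf y x (Finset.mem_filter.mp hy).2)]
    simp
  rw [h, mul_div_assoc, mul_comm, div_mul_cancel₀ _ (fib_card_pos κ x).ne']

theorem cexp_idem (f : Ω → ℝ) : cexp κ (cexp κ f) = cexp κ f :=
  cexp_of_factor κ (fun _ _ h => cexp_congr κ h f)

theorem ip_cexp_self (f : Ω → ℝ) : ip f (cexp κ f) = ip (cexp κ f) (cexp κ f) := by
  rw [← cexp_symm, cexp_idem]

theorem ip_cexp_self_nonneg (f : Ω → ℝ) : 0 ≤ ip f (cexp κ f) := by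
  rw [ip_cexp_self]
  exact ip_self_nonneg _

/-- `ip f f - ip f (cexp κ f)` is the squared norm of `f - cexp κ f`. -/
theorem ip_sub_cexp (f : Ω → ℝ) :
    ip (f - cexp κ f) (f - cexp κ f) = ip f f - ip f (cexp κ f) := by
  rw [ip_sub_left, ip_sub_right, ip_sub_right, ← ip_cexp_self, ip_comm (cexp κ f) f]
  ring

theorem ip_cexp_le (f : Ω → ℝ) : ip f (cexp κ f) ≤ ip f f := by
  have := ip_self_nonneg (f - cexp κ f)
  rw [ip_sub_cexp] at this
  linarith

/-- Tower property: if `κ'` is coarser than `κ` then `cexp κ' ∘ cexp κ = cexp κ'`. -/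
theorem cexp_tower {K' : Type*} [DecidableEq K'] (κ' : Ω → K')
    (hc : ∀ x y, κ x = κ y → κ' x = κ' y) (f : Ω → ℝ) :
    cexp κ' (cexp κ f) = cexp κ' f := by
  apply ext_ip
  intro u
  rw [cexp_symm, cexp_symm, cexp_symm]
  congr 1
  exact cexp_of_factor κ (fun x y h => cexp_congr κ' (hc x y h) u)

theorem cexp_tower' {K' : Type*} [DecidableEq K'] (κ' : Ω → K')
    (hc : ∀ x y, κ x = κ y → κ' x = κ' y) (f : Ω → ℝ) :
    cexp κ (cexp κ' f) = cexp κ' f :=
  cexp_of_factor κ (fun x y h => cexp_congr κ' (hc x y h) f)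

/-- `cexp κ` preserves the total sum. -/
theorem sum_cexp (f : Ω → ℝ) : ∑ x, cexp κ f x = ∑ x, f x := by
  have h1 : cexp κ (fun _ => (1 : ℝ)) = fun _ => (1 : ℝ) := cexp_of_factor κ (fun _ _ _ => rfl)
  have h2 := cexp_symm κ (fun _ => (1 : ℝ)) f
  rw [h1] at h2
  unfold ip at h2
  simpa using h2

/-- Commutation criterion: if `cexp κ₁` maps functions factoring through `κ₂` to functions
factoring through `κ₂`, then the two conditional expectations commute. -/
theorem cexp_comm_of_preserves {K₂ : Type*} [DecidableEq K₂] (κ₂ : Ω → K₂)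
    (h : ∀ g : Ω → ℝ, (∀ x y, κ₂ x = κ₂ y → g x = g y) →
      ∀ x y, κ₂ x = κ₂ y → cexp κ g x = cexp κ g y)
    (f : Ω → ℝ) : cexp κ (cexp κ₂ f) = cexp κ₂ (cexp κ f) := by
  have key : ∀ f : Ω → ℝ, cexp κ₂ (cexp κ (cexp κ₂ f)) = cexp κ (cexp κ₂ f) := fun f =>
    cexp_of_factor κ₂ (h (cexp κ₂ f) (fun x y hxy => cexp_congr κ₂ hxy f))
  apply ext_ip
  intro u
  calc ip u (cexp κ (cexp κ₂ f)) = ip u (cexp κ₂ (cexp κ (cexp κ₂ f))) := by rw [key]
    _ = ip (cexp κ₂ (cexp κ (cexp κ₂ u))) f := by
        rw [cexp_symm, cexp_symm, cexp_symm]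
    _ = ip (cexp κ (cexp κ₂ u)) f := by rw [key]
    _ = ip u (cexp κ₂ (cexp κ f)) := by rw [cexp_symm, cexp_symm]

/-- Equivariance: if a bijection `τ` of `Ω` respects the fibres of `κ`, then `cexp κ`
commutes with composition by `τ`. -/
theorem cexp_comp_equiv (τ : Ω ≃ Ω) (hτ : ∀ x y, κ (τ x) = κ (τ y) ↔ κ x = κ y) (f : Ω → ℝ) :
    cexp κ (f ∘ τ) = cexp κ f ∘ τ := by
  funext x
  simp only [Function.comp_apply, cexp_apply]
  have hbij : ∀ s : Ω → ℝ, ∑ y ∈ univ.filter (fun y => κ y = κ x), s (τ y)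
      = ∑ y ∈ univ.filter (fun y => κ y = κ (τ x)), s y := by
    intro s
    refine Finset.sum_nbij' (fun y => τ y) (fun y => τ.symm y) ?_ ?_ ?_ ?_ ?_
    · intro y hy
      simp only [Finset.mem_filter, Finset.mem_univ, true_and] at hy ⊢
      exact (hτ y x).mpr hy
    · intro y hy
      simp only [Finset.mem_filter, Finset.mem_univ, true_and] at hy ⊢
      have := (hτ (τ.symm y) x).mp (by simpa using hy)
      exact this
    · intro y _
      simp
    · intro y _
      simp
    · intro y _
      rfl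
  have hcard := hbij (fun _ => (1 : ℝ))
  simp only [Finset.sum_const, nsmul_eq_mul, mul_one] at hcard
  rw [hbij f, hcard]

end cexpsec


section eigen

variable {Ω : Type*} [Fintype Ω] [DecidableEq Ω]

theorem ip_eq_dotProduct (f g : Ω → ℝ) : ip f g = f ⬝ᵥ g := rfl

/-- If every eigenvalue of a symmetric linear map `T` is at most `c`, then
`ip f (T f) ≤ c * ip f f` for all `f`. -/
theorem form_le_of_eigen (T : (Ω → ℝ) →ₗ[ℝ] (Ω → ℝ))
    (hT : ∀ f g, ip f (T g) = ip (T f) g) (c : ℝ)
    (h : ∀ (μ : ℝ) (f : Ω → ℝ), f ≠ 0 → T f = μ • f → μ ≤ c) (f : Ω → ℝ) :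
    ip f (T f) ≤ c * ip f f := by
  set A : Matrix Ω Ω ℝ := LinearMap.toMatrix' T with hA
  have hmul : ∀ v : Ω → ℝ, A *ᵥ v = T v := by
    intro v
    rw [hA, ← Matrix.toLin'_apply, Matrix.toLin'_toMatrix']
  have hsingle : ∀ (i : Ω) (g : Ω → ℝ), ip (Pi.single i (1 : ℝ)) g = g i := by
    intro i g
    unfold ip
    simp [Pi.single_apply]
  have hAsymm : A.IsHermitian := by
    ext i j
    simp only [Matrix.conjTranspose_apply, star_trivial]
    rw [hA, LinearMap.toMatrix'_apply, LinearMap.toMatrix'_apply]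
    have h1 := hT (Pi.single j (1 : ℝ)) (Pi.single i (1 : ℝ))
    rw [hsingle, ip_comm, hsingle] at h1
    exact h1
  set M : Matrix Ω Ω ℝ := c • (1 : Matrix Ω Ω ℝ) - A with hM
  have hMh : M.IsHermitian := by
    have hA2 : ∀ i j, A i j = A j i := fun i j => by
      have := congrFun (congrFun hAsymm j) i
      simpa using this
    ext i j
    simp only [Matrix.conjTranspose_apply, star_trivial]
    rw [hM]
    simp only [Matrix.sub_apply, Matrix.smul_apply, Matrix.one_apply, hA2 j i, eq_comm]
  have hMv : ∀ v : Ω → ℝ, M *ᵥ v = c • v - T v := by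
    intro v
    rw [hM, Matrix.sub_mulVec, Matrix.smul_mulVec, Matrix.one_mulVec, hmul]
  have hpsd : M.PosSemidef := by
    rw [hMh.posSemidef_iff_eigenvalues_nonneg]
    intro j
    set v : Ω → ℝ := ⇑(hMh.eigenvectorBasis j) with hv
    have hev := hMh.mulVec_eigenvectorBasis j
    rw [hMv] at hev
    have hvne : v ≠ 0 := by
      intro h0
      have hnorm := (hMh.eigenvectorBasis).orthonormal.1 j
      have : (hMh.eigenvectorBasis j) = 0 := by
        ext i
        have := congrFun h0 i
        simpa [hv] using this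
      rw [this, norm_zero] at hnorm
      exact zero_ne_one hnorm
    have hTv : T v = (c - hMh.eigenvalues j) • v := by
      have : T v = c • v - hMh.eigenvalues j • v := by
        rw [← hev]; abel
      rw [this, sub_smul]
    have := h _ v hvne hTv
    simp only [Pi.zero_apply]
    linarith
  have h3 := hpsd.dotProduct_mulVec_nonneg f
  rw [hMv, star_trivial] at h3
  have h4 : f ⬝ᵥ (c • f - T f) = c * ip f f - ip f (T f) := by
    rw [dotProduct_sub, dotProduct_smul, smul_eq_mul]
    rfl
  rw [h4] at h3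
  linarith

end eigen

section knabe

variable {Ω : Type*} [Fintype Ω]

/-- Local step: a symmetric `S` that dominates `1 - Q` for a symmetric idempotent `Q`
with `S ∘ Q = 0` satisfies `S ≤ S ^ 2` in the quadratic form sense. -/
theorem local_sq (S Q : (Ω → ℝ) →ₗ[ℝ] (Ω → ℝ))
    (hS : ∀ f g, ip f (S g) = ip (S f) g) (hQ : ∀ f g, ip f (Q g) = ip (Q f) g)
    (hQ2 : ∀ f, Q (Q f) = Q f) (hSQ : ∀ f, S (Q f) = 0)
    (hdom : ∀ f, ip f f - ip f (Q f) ≤ ip f (S f)) (f : Ω → ℝ) :
    ip f (S f) ≤ ip (S f) (S f) := by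
  set B : Ω → ℝ := S f - f + Q f with hB
  have h1 : ip (S f) (Q f) = 0 := by
    rw [← hS, hSQ, ip_zero_right]
  have h2 : ip (Q f) (Q f) = ip f (Q f) := by
    rw [← hQ, hQ2]
  have h3 : ip (Q f) B = 0 := by
    rw [hB, ip_add_right, ip_sub_right, ip_comm (Q f) (S f), h1, h2, ip_comm (Q f) f]
    ring
  have h4 : 0 ≤ ip f B := by
    rw [hB, ip_add_right, ip_sub_right]
    have := hdom f
    linarith
  have h5 : S f = B + (f - Q f) := by
    rw [hB]; abel
  have h6 : ip (S f) (S f) - ip f (S f) = ip B B + ip f B := by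
    have e1 : ip (S f) (S f) = ip (S f) B + ip (S f) f - ip (S f) (Q f) := by
      conv_lhs => rw [h5, ip_add_right, ip_sub_right, ← h5]
      ring
    have e2 : ip (S f) B = ip B B + ip f B - ip (Q f) B := by
      conv_lhs => rw [h5, ip_add_left, ip_sub_left]
      ring
    rw [e1, e2, h1, h3, ip_comm (S f) f]
    ring
  have := ip_self_nonneg B
  linarith

variable {ι : Type*} [Fintype ι] [DecidableEq ι]

theorem pair_union_card {p q : Finset ι} (hp : p.card = 2) (hq : q.card = 2) (hne : p ≠ q)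
    (hnd : ¬ Disjoint p q) : (p ∪ q).card = 3 := by
  have h1 := Finset.card_union_add_card_inter p q
  have h2 : 1 ≤ (p ∩ q).card := by
    rw [Finset.one_le_card]
    rw [Finset.not_disjoint_iff_nonempty_inter] at hnd
    exact hnd
  have h3 : (p ∩ q).card ≤ 1 := by
    by_contra hcon
    push Not at hcon
    have hle : (p ∩ q).card ≤ p.card := Finset.card_le_card Finset.inter_subset_left
    have hpe : p ∩ q = p := Finset.eq_of_subset_of_card_le Finset.inter_subset_left (by omega)
    have hqe : p ∩ q = q := Finset.eq_of_subset_of_card_le Finset.inter_subset_right (by omega)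
    exact hne (hpe.symm.trans hqe)
  omega

theorem triple_count {p q : Finset ι} (hp : p.card = 2) (hq : q.card = 2) (hne : p ≠ q) :
    (((univ : Finset ι).powersetCard 3).filter (fun T => p ⊆ T ∧ q ⊆ T)).card
      = if Disjoint p q then 0 else 1 := by
  split_ifs with hd
  · rw [Finset.card_eq_zero, Finset.filter_eq_empty_iff]
    intro T hT hpq
    have hT3 : T.card = 3 := (Finset.mem_powersetCard.mp hT).2
    have hsub : p ∪ q ⊆ T := Finset.union_subset hpq.1 hpq.2
    have := Finset.card_le_card hsub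
    rw [Finset.card_union_of_disjoint hd] at this
    omega
  · have h3 := pair_union_card hp hq hne hd
    have : ((univ : Finset ι).powersetCard 3).filter (fun T => p ⊆ T ∧ q ⊆ T) = {p ∪ q} := by
      ext T
      simp only [Finset.mem_filter, Finset.mem_powersetCard, Finset.subset_univ, true_and,
        Finset.mem_singleton]
      constructor
      · rintro ⟨hT3, hpT, hqT⟩
        have hsub : p ∪ q ⊆ T := Finset.union_subset hpT hqT
        exact (Finset.eq_of_subset_of_card_le hsub (by omega)).symm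
      · rintro rfl
        exact ⟨h3, Finset.subset_union_left, Finset.subset_union_right⟩
    rw [this, Finset.card_singleton]

/-- Knabe-type local-to-global lemma for pair projections on a complete graph of sites:
if disjoint pairs commute and every triple system has no spectrum in `(0, 1)` (in the form
`1 - Q T ≤ ∑_{p ⊆ T} P p`), then `H = ∑_p P p` satisfies `H ≤ H ^ 2`. -/
theorem knabe (P Q : Finset ι → (Ω → ℝ) →ₗ[ℝ] (Ω → ℝ))
    (hsymm : ∀ p, p.card = 2 → ∀ f g, ip f (P p g) = ip (P p f) g)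
    (hidem : ∀ p, p.card = 2 → ∀ f, P p (P p f) = P p f)
    (hcomm : ∀ p q, p.card = 2 → q.card = 2 → Disjoint p q → ∀ f, P p (P q f) = P q (P p f))
    (hQsymm : ∀ T, T.card = 3 → ∀ f g, ip f (Q T g) = ip (Q T f) g)
    (hQidem : ∀ T, T.card = 3 → ∀ f, Q T (Q T f) = Q T f)
    (hPQ : ∀ T, T.card = 3 → ∀ p ∈ T.powersetCard 2, ∀ f, P p (Q T f) = 0)
    (htriple : ∀ T, T.card = 3 → ∀ f,
      ip f f - ip f (Q T f) ≤ ∑ p ∈ T.powersetCard 2, ip f (P p f))
    (f : Ω → ℝ) :
    ip f (∑ p ∈ (univ : Finset ι).powersetCard 2, P p f) ≤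
      ip (∑ p ∈ (univ : Finset ι).powersetCard 2, P p f)
        (∑ p ∈ (univ : Finset ι).powersetCard 2, P p f) := by
  classical
  set PP : Finset (Finset ι) := (univ : Finset ι).powersetCard 2 with hPP
  set TT : Finset (Finset ι) := (univ : Finset ι).powersetCard 3 with hTT
  have hc2 : ∀ p ∈ PP, p.card = 2 := fun p hp => (Finset.mem_powersetCard.mp hp).2
  have hc3 : ∀ T ∈ TT, T.card = 3 := fun T hT => (Finset.mem_powersetCard.mp hT).2
  set a : Finset ι → Finset ι → ℝ := fun p q => ip (P p f) (P q f) with ha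
  -- expansion of the square
  have hexp : ip (∑ p ∈ PP, P p f) (∑ p ∈ PP, P p f) = ∑ p ∈ PP, ∑ q ∈ PP, a p q := by
    rw [ip_sum_left]
    refine Finset.sum_congr rfl (fun p _ => ?_)
    rw [ip_sum_right]
  have hlin : ip f (∑ p ∈ PP, P p f) = ∑ p ∈ PP, a p p := by
    rw [ip_sum_right]
    refine Finset.sum_congr rfl (fun p hp => ?_)
    rw [ha]
    simp only
    rw [← hsymm p (hc2 p hp), hidem p (hc2 p hp)]
  -- disjoint pairs contribute nonnegatively
  have hdisj : ∀ p ∈ PP, ∀ q ∈ PP, Disjoint p q → 0 ≤ a p q := by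
    intro p hp q hq hd
    have e : a p q = ip (P p (P q f)) (P p (P q f)) := by
      calc a p q = ip (P p f) (P q (P q f)) := by
            rw [ha]
            simp only
            rw [hidem q (hc2 q hq)]
        _ = ip (P q (P p f)) (P q f) := hsymm q (hc2 q hq) _ _
        _ = ip (P p (P q f)) (P q f) := by rw [hcomm q p (hc2 q hq) (hc2 p hp) hd.symm]
        _ = ip (P q f) (P p (P q f)) := ip_comm _ _
        _ = ip (P q f) (P p (P p (P q f))) := by rw [hidem p (hc2 p hp)]
        _ = ip (P p (P q f)) (P p (P q f)) := hsymm p (hc2 p hp) _ _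
    rw [e]
    exact ip_self_nonneg _
  -- triple sums
  have htrip : ∀ T ∈ TT, 0 ≤ ∑ p ∈ T.powersetCard 2, ∑ q ∈ T.powersetCard 2,
      (if p = q then 0 else a p q) := by
    intro T hT
    have h3 := hc3 T hT
    set S : (Ω → ℝ) →ₗ[ℝ] (Ω → ℝ) := ∑ p ∈ T.powersetCard 2, P p with hS
    have hSapp : ∀ g, S g = ∑ p ∈ T.powersetCard 2, P p g := by
      intro g
      rw [hS, LinearMap.sum_apply]
    have hc2T : ∀ p ∈ T.powersetCard 2, p.card = 2 := fun p hp => (Finset.mem_powersetCard.mp hp).2
    have hSsymm : ∀ g h, ip g (S h) = ip (S g) h := by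
      intro g h
      rw [hSapp, hSapp, ip_sum_right, ip_sum_left]
      exact Finset.sum_congr rfl (fun p hp => hsymm p (hc2T p hp) g h)
    have hSQ : ∀ g, S (Q T g) = 0 := by
      intro g
      rw [hSapp]
      exact Finset.sum_eq_zero (fun p hp => hPQ T h3 p hp g)
    have hdom : ∀ g, ip g g - ip g (Q T g) ≤ ip g (S g) := by
      intro g
      rw [hSapp, ip_sum_right]
      exact htriple T h3 g
    have hloc := local_sq S (Q T) hSsymm (hQsymm T h3) (hQidem T h3) hSQ hdom f
    have e1 : ip (S f) (S f) = ∑ p ∈ T.powersetCard 2, ∑ q ∈ T.powersetCard 2, a p q := by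
      rw [hSapp, ip_sum_left]
      refine Finset.sum_congr rfl (fun p _ => ?_)
      rw [ip_sum_right]
    have e2 : ip f (S f) = ∑ p ∈ T.powersetCard 2, a p p := by
      rw [hSapp, ip_sum_right]
      refine Finset.sum_congr rfl (fun p hp => ?_)
      rw [ha]
      simp only
      rw [← hsymm p (hc2T p hp), hidem p (hc2T p hp)]
    have e3 : ∑ p ∈ T.powersetCard 2, ∑ q ∈ T.powersetCard 2, (if p = q then 0 else a p q)
        = (∑ p ∈ T.powersetCard 2, ∑ q ∈ T.powersetCard 2, a p q)
          - ∑ p ∈ T.powersetCard 2, a p p := by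
      rw [← Finset.sum_sub_distrib]
      refine Finset.sum_congr rfl (fun p hp => ?_)
      have : ∑ q ∈ T.powersetCard 2, (if p = q then 0 else a p q)
          = ∑ q ∈ T.powersetCard 2, (a p q - if p = q then a p q else 0) := by
        refine Finset.sum_congr rfl (fun q _ => ?_)
        split_ifs <;> simp
      rw [this, Finset.sum_sub_distrib, Finset.sum_ite_eq, if_pos hp]
    rw [e3, ← e1, ← e2]
    linarith
  -- regrouping of the overlapping ordered pairs by their union
  have hregroup : ∑ T ∈ TT, ∑ p ∈ T.powersetCard 2, ∑ q ∈ T.powersetCard 2,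
      (if p = q then 0 else a p q)
      = ∑ p ∈ PP, ∑ q ∈ PP, (if p = q then 0 else if Disjoint p q then 0 else a p q) := by
    have step : ∀ T ∈ TT, ∑ p ∈ T.powersetCard 2, ∑ q ∈ T.powersetCard 2,
        (if p = q then 0 else a p q)
        = ∑ p ∈ PP, ∑ q ∈ PP, (if p ⊆ T ∧ q ⊆ T then (if p = q then 0 else a p q) else 0) := by
      intro T _
      have hsub : T.powersetCard 2 = PP.filter (fun p => p ⊆ T) := by
        ext p
        simp only [hPP, Finset.mem_powersetCard, Finset.mem_filter, Finset.subset_univ, true_and]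
        tauto
      rw [hsub, Finset.sum_filter]
      refine Finset.sum_congr rfl (fun p _ => ?_)
      by_cases hpT : p ⊆ T
      · rw [if_pos hpT, Finset.sum_filter]
        refine Finset.sum_congr rfl (fun q _ => ?_)
        by_cases hqT : q ⊆ T
        · rw [if_pos hqT, if_pos (show p ⊆ T ∧ q ⊆ T from ⟨hpT, hqT⟩)]
        · rw [if_neg hqT, if_neg (show ¬ (p ⊆ T ∧ q ⊆ T) from fun h => hqT h.2)]
      · rw [if_neg hpT]
        symm
        exact Finset.sum_eq_zero (fun q _ => if_neg (show ¬ (p ⊆ T ∧ q ⊆ T) from fun h => hpT h.1))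
    rw [Finset.sum_congr rfl step, Finset.sum_comm]
    refine Finset.sum_congr rfl (fun p hp => ?_)
    rw [Finset.sum_comm]
    refine Finset.sum_congr rfl (fun q hq => ?_)
    by_cases hpq : p = q
    · simp [hpq]
    · rw [if_neg hpq]
      have hcount := triple_count (hc2 p hp) (hc2 q hq) hpq
      rw [← Finset.sum_filter, Finset.sum_const, nsmul_eq_mul, ← hTT, if_neg hpq] at *
      rw [hcount]
      split_ifs <;> simp
  -- conclusion
  have hsplit : ∑ p ∈ PP, ∑ q ∈ PP, a p q
      = (∑ p ∈ PP, a p p)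
        + (∑ p ∈ PP, ∑ q ∈ PP, (if p = q then 0 else if Disjoint p q then 0 else a p q))
        + ∑ p ∈ PP, ∑ q ∈ PP, (if p = q then 0 else if Disjoint p q then a p q else 0) := by
    rw [← Finset.sum_add_distrib, ← Finset.sum_add_distrib]
    refine Finset.sum_congr rfl (fun p hp => ?_)
    have : ∑ q ∈ PP, a p q = ∑ q ∈ PP, ((if p = q then a p q else 0)
        + (if p = q then 0 else if Disjoint p q then 0 else a p q)
        + (if p = q then 0 else if Disjoint p q then a p q else 0)) := by
      refine Finset.sum_congr rfl (fun q _ => ?_)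
      split_ifs <;> simp
    rw [this, Finset.sum_add_distrib, Finset.sum_add_distrib, Finset.sum_ite_eq, if_pos hp]
  have hpos1 : 0 ≤ ∑ p ∈ PP, ∑ q ∈ PP,
      (if p = q then 0 else if Disjoint p q then 0 else a p q) := by
    rw [← hregroup]
    exact Finset.sum_nonneg htrip
  have hpos2 : 0 ≤ ∑ p ∈ PP, ∑ q ∈ PP,
      (if p = q then 0 else if Disjoint p q then a p q else 0) := by
    refine Finset.sum_nonneg (fun p hp => Finset.sum_nonneg (fun q hq => ?_))
    split_ifs with h1 h2
    · exact le_refl _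
    · exact hdisj p hp q hq h2
    · exact le_refl _
  rw [hexp, hlin, hsplit]
  linarith

end knabe

section gap

variable {Ω : Type*} [Fintype Ω] [DecidableEq Ω]

/-- Gap statement: a symmetric nonnegative `H` with `H ≤ H ^ 2` dominates `1 - Pi`, where `Pi`
is a symmetric idempotent with `H ∘ Pi = 0` that fixes the kernel of `H`. -/
theorem gap_of_sq (H Pi : (Ω → ℝ) →ₗ[ℝ] (Ω → ℝ))
    (hH : ∀ f g, ip f (H g) = ip (H f) g) (hPi : ∀ f g, ip f (Pi g) = ip (Pi f) g)
    (hHPi : ∀ f, H (Pi f) = 0)
    (hnn : ∀ f, 0 ≤ ip f (H f))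
    (hsq : ∀ f, ip f (H f) ≤ ip (H f) (H f))
    (hker : ∀ f, H f = 0 → Pi f = f)
    (f : Ω → ℝ) : ip f f - ip f (Pi f) ≤ ip f (H f) := by
  have hPiH : ∀ g, Pi (H g) = 0 := by
    intro g
    apply ext_ip
    intro u
    rw [hPi, hH, hHPi, ip_zero_left, ip_zero_right]
  have key := form_le_of_eigen (-(H + Pi)) (by
    intro g h
    simp only [LinearMap.neg_apply, LinearMap.add_apply]
    rw [ip_neg_right, ip_neg_left, ip_add_right, ip_add_left, hH, hPi]) (-1) (by
    intro μ g hg hev
    simp only [LinearMap.neg_apply, LinearMap.add_apply] at hev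
    -- (H + Pi) g = (-μ) g
    have hev2 : H g + Pi g = (-μ) • g := by
      rw [neg_smul, ← hev, neg_neg]
    have hPig : Pi g = (-μ) • Pi g := by
      have := congrArg Pi hev2
      rw [map_add, hPiH, zero_add, map_smul] at this
      -- Pi (Pi g) = -μ • Pi g ; need Pi (Pi g) = Pi g
      have hPi2 : Pi (Pi g) = Pi g := by
        have h0 : H (Pi g) = 0 := hHPi g
        exact hker _ h0
      rw [hPi2] at this
      exact this
    by_cases hμ : -μ = 1
    · linarith
    · have hPi0 : Pi g = 0 := by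
        have h1 : (1 - (-μ)) • Pi g = 0 := by
          rw [sub_smul, one_smul, ← hPig, sub_self]
        rcases smul_eq_zero.mp h1 with h2 | h2
        · exfalso; apply hμ; linarith
        · exact h2
      have hHg : H g = (-μ) • g := by
        rw [← hev2, hPi0, add_zero]
      have hpos : 0 < ip g g := by
        rcases (ip_self_nonneg g).lt_or_eq with h | h
        · exact h
        · exact absurd (ip_self_eq_zero.mp h.symm) hg
      have h1 := hsq g
      have h2 := hnn g
      rw [hHg, ip_smul_right] at h2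
      rw [hHg, ip_smul_right, ip_smul_left, ip_smul_right] at h1
      have hν0 : 0 ≤ -μ := by
        by_contra hcon
        push Not at hcon
        nlinarith
      have hν1 : -μ ≤ (-μ) * (-μ) := by
        by_contra hcon
        push Not at hcon
        nlinarith
      by_cases hz : -μ = 0
      · exfalso
        have hHg0 : H g = 0 := by rw [hHg, hz, zero_smul]
        have := hker g hHg0
        rw [hPi0] at this
        exact hg this.symm
      · have hνpos : 0 < -μ := lt_of_le_of_ne hν0 (Ne.symm hz)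
        have : 1 ≤ -μ := by
          by_contra hcon
          push Not at hcon
          nlinarith
        linarith) f
  simp only [LinearMap.neg_apply, LinearMap.add_apply] at key
  rw [ip_neg_right, ip_add_right] at key
  linarith

end gap

end Vale.Agent.Lib.P335.Bip
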