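import Mathlib
import Vale.Agent.Lib.P335.helper26.Abstract

/-!
Column transpositions of margin matrices (used for the three-row lemma of P335).
-/

namespace Vale.Agent.Lib.P335.Bip

open Finset

/-- Swap the contents of the columns `u` and `u'` of a matrix. -/
def swapCols {m n : ℕ} (u u' : Fin n) (x : Mat m n) : Mat m n :=
  fun i => (x i).map (Equiv.swap u u').toEmbedding

theorem mem_swapCols {m n : ℕ} (u u' : Fin n) (x : Mat m n) (i : Fin m) (j : Fin n) :
    j ∈ swapCols u u' x i ↔ Equiv.swap u u' j ∈ x i := by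
  unfold swapCols
  rw [Finset.mem_map_equiv, Equiv.symm_swap]

theorem swapCols_swapCols {m n : ℕ} (u u' : Fin n) (x : Mat m n) :
    swapCols u u' (swapCols u u' x) = x := by
  funext i
  ext j
  rw [mem_swapCols, mem_swapCols, Equiv.swap_apply_self]

theorem card_swapCols {m n : ℕ} (u u' : Fin n) (x : Mat m n) (i : Fin m) :
    (swapCols u u' x i).card = (x i).card := by
  unfold swapCols
  exact Finset.card_map _

theorem colSum_swapCols {m n : ℕ} (u u' : Fin n) (x : Mat m n) (j : Fin n) :
    colSum (swapCols u u' x) j = colSum x (Equiv.swap u u' j) := by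
  unfold colSum
  congr 1
  ext i
  simp only [Finset.mem_filter, Finset.mem_univ, true_and, mem_swapCols]

theorem mask_swapCols {m n : ℕ} (p : Finset (Fin m)) (u u' : Fin n) (x : Mat m n) :
    mask p (swapCols u u' x) = swapCols u u' (mask p x) := by
  funext i
  unfold mask swapCols
  by_cases hi : i ∈ p
  · simp [hi]
  · simp [hi]

/-- The involution of `Om m n r c` swapping two columns with equal column sums. -/
def swapOm {m n : ℕ} {r : Fin m → ℕ} {c : Fin n → ℕ} (u u' : Fin n) (h : c u = c u') :
    Om m n r c ≃ Om m n r c where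
  toFun x := ⟨swapCols u u' x.1, fun i => by rw [card_swapCols]; exact x.2.1 i, fun j => by
    rw [colSum_swapCols, x.2.2]
    rcases eq_or_ne j u with rfl | hju
    · rw [Equiv.swap_apply_left, h]
    · rcases eq_or_ne j u' with rfl | hju'
      · rw [Equiv.swap_apply_right, h]
      · rw [Equiv.swap_apply_of_ne_of_ne hju hju']⟩
  invFun x := ⟨swapCols u u' x.1, fun i => by rw [card_swapCols]; exact x.2.1 i, fun j => by
    rw [colSum_swapCols, x.2.2]
    rcases eq_or_ne j u with rfl | hju
    · rw [Equiv.swap_apply_left, h]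
    · rcases eq_or_ne j u' with rfl | hju'
      · rw [Equiv.swap_apply_right, h]
      · rw [Equiv.swap_apply_of_ne_of_ne hju hju']⟩
  left_inv x := Subtype.ext (swapCols_swapCols u u' x.1)
  right_inv x := Subtype.ext (swapCols_swapCols u u' x.1)

theorem swapOm_val {m n : ℕ} {r : Fin m → ℕ} {c : Fin n → ℕ} (u u' : Fin n) (h : c u = c u')
    (x : Om m n r c) : (swapOm u u' h x).1 = swapCols u u' x.1 := rfl

theorem swapOm_swapOm {m n : ℕ} {r : Fin m → ℕ} {c : Fin n → ℕ} (u u' : Fin n) (h : c u = c u')
    (x : Om m n r c) : swapOm u u' h (swapOm u u' h x) = x :=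
  Subtype.ext (swapCols_swapCols u u' x.1)

/-- Resampling rows commutes with a column transposition. -/
theorem R_swapOm {m n : ℕ} {r : Fin m → ℕ} {c : Fin n → ℕ} (p : Finset (Fin m))
    (u u' : Fin n) (h : c u = c u') (f : Om m n r c → ℝ) :
    R p (f ∘ swapOm u u' h) = R p f ∘ swapOm u u' h := by
  unfold R
  apply cexp_comp_equiv
  intro x y
  rw [swapOm_val, swapOm_val, mask_swapCols, mask_swapCols]
  constructor
  · intro hxy
    have := congrArg (swapCols u u') hxy
    rwa [swapCols_swapCols, swapCols_swapCols] at this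
  · intro hxy
    rw [hxy]

/-! ### Level data of a three-row system -/

/-- The number of columns with column sum `k`. -/
def ncol {n : ℕ} (c : Fin n → ℕ) (k : ℕ) : ℕ := (univ.filter (fun j => c j = k)).card

/-- The number of columns of sum `2` whose zero entry lies in row `l`
(the number of holes at the site `l`). -/
def hcnt {n : ℕ} (c : Fin n → ℕ) (x : Mat 3 n) (l : Fin 3) : ℕ :=
  (univ.filter (fun j => c j = 2 ∧ j ∉ x l)).card

/-- The one-site weight of a three-row system with row sums `r` and column sums `c`: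
`1 / (t! (t + δ)!)` with `δ = r l - (number of columns of sum 3) - (number of columns of sum 2)`,
and `0` when `t + δ < 0`. -/
noncomputable def w3 {n : ℕ} (r : Fin 3 → ℕ) (c : Fin n → ℕ) (l : Fin 3) (t : ℕ) : ℝ :=
  if ncol c 3 + ncol c 2 ≤ r l + t then
    1 / ((t.factorial : ℝ) * ((r l + t - (ncol c 3 + ncol c 2)).factorial : ℝ))
  else 0

/-- The lattice simplex `{b : Fin 3 → ℕ | b 0 + b 1 + b 2 = B}`. -/
def simplex (B : ℕ) : Finset (Fin 3 → ℕ) :=
  (Fintype.piFinset (fun _ : Fin 3 => Finset.range (B + 1))).filter (fun b => ∑ l, b l = B)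

end Vale.Agent.Lib.P335.Bip
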