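import Mathlib
import Vale.Agent.Lib.P335.helper26.HGap
import Vale.Agent.Lib.P335.helper19.TwoRow

/-!
The Poincare inequality (spectral gap at least two) for the switch graph on margin matrices,
given the three-row inequality.
-/

namespace Vale.Agent.Lib.P335.Bip

open Finset

open scoped Classical in
/-- Spectral gap of the switch graph on margin matrices, given the three-row inequality:
for every function `f` of mean zero, four times its squared norm is at most the sum of
`(f x - f y) ^ 2` over the ordered pairs of switch-adjacent matrices. -/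
theorem bip_poincare_of_threeRow
    (h3 : ∀ (n : ℕ) (r : Fin 3 → ℕ) (c : Fin n → ℕ) (g : Om 3 n r c → ℝ),
      ∑ q ∈ (univ : Finset (Fin 3)).powersetCard 2, ip g (R q g) ≤ 2 * ip g g + ip g (R univ g))
    (m n : ℕ) (r : Fin m → ℕ) (c : Fin n → ℕ) (f : Om m n r c → ℝ) (hf : ∑ x, f x = 0) :
    4 * ∑ x, f x ^ 2 ≤ ∑ x, ∑ y, if IsSwitch x.1 y.1 then (f x - f y) ^ 2 else 0 := by
  have hgap := hgap_of_threeRow h3
  have h2 := twoRow_of_hgap hgap
  have hpair : ∀ p : Finset (Fin m), p.card = 2 →
      4 * (ip f f - ip f (R p f))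
        ≤ ∑ x, ∑ y, if IsSwitchIn p x.1 y.1 then (f x - f y) ^ 2 else 0 :=
    fun p hp => pair_of_twoRow h2 p hp f
  -- the global mean vanishes
  have hmean : R (univ : Finset (Fin m)) f = 0 := by
    funext x
    unfold R
    rw [cexp_apply]
    have hfil : (univ.filter (fun y : Om m n r c => mask univ y.1 = mask univ x.1)) = univ := by
      ext y
      simp only [Finset.mem_filter, Finset.mem_univ, true_and, iff_true]
      funext a
      unfold mask
      simp
    rw [hfil, hf, zero_div]
    rfl
  have h1 := hgap m n r c f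
  rw [hmean, ip_zero_right, sub_zero] at h1
  -- sum over the pairs
  have h4 : 4 * ip f f ≤ ∑ p ∈ (univ : Finset (Fin m)).powersetCard 2,
      ∑ x, ∑ y, if IsSwitchIn p x.1 y.1 then (f x - f y) ^ 2 else 0 := by
    calc 4 * ip f f ≤ 4 * ∑ p ∈ (univ : Finset (Fin m)).powersetCard 2,
          (ip f f - ip f (R p f)) := by linarith
      _ = ∑ p ∈ (univ : Finset (Fin m)).powersetCard 2, 4 * (ip f f - ip f (R p f)) := by
          rw [Finset.mul_sum]
      _ ≤ _ := Finset.sum_le_sum (fun p hp => hpair p (Finset.mem_powersetCard.mp hp).2)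
  have h5 : ∑ p ∈ (univ : Finset (Fin m)).powersetCard 2,
      ∑ x : Om m n r c, ∑ y : Om m n r c, (if IsSwitchIn p x.1 y.1 then (f x - f y) ^ 2 else 0)
      ≤ ∑ x : Om m n r c, ∑ y : Om m n r c, if IsSwitch x.1 y.1 then (f x - f y) ^ 2 else 0 := by
    rw [Finset.sum_comm]
    refine Finset.sum_le_sum (fun x _ => ?_)
    rw [Finset.sum_comm]
    refine Finset.sum_le_sum (fun y _ => ?_)
    by_cases hsw : ∃ p ∈ (univ : Finset (Fin m)).powersetCard 2, IsSwitchIn p x.1 y.1
    · obtain ⟨p0, hp0, hsw0⟩ := hsw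
      have huniq : ∀ p ∈ (univ : Finset (Fin m)).powersetCard 2, p ≠ p0 →
          (if IsSwitchIn p x.1 y.1 then (f x - f y) ^ 2 else 0) = 0 := by
        intro p hp hne
        rw [if_neg]
        intro hsw1
        apply hne
        rw [H19.isSwitchIn_eq_filter p (Finset.mem_powersetCard.mp hp).2 x.1 y.1 hsw1,
          H19.isSwitchIn_eq_filter p0 (Finset.mem_powersetCard.mp hp0).2 x.1 y.1 hsw0]
      rw [Finset.sum_eq_single_of_mem p0 hp0 huniq, if_pos hsw0]
      have hglob : IsSwitch x.1 y.1 := by
        obtain ⟨i, i', j, j', _, _, h⟩ := hsw0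
        exact ⟨i, i', j, j', Finset.mem_univ _, Finset.mem_univ _, h⟩
      rw [if_pos hglob]
    · have hzero : ∀ p ∈ (univ : Finset (Fin m)).powersetCard 2,
          (if IsSwitchIn p x.1 y.1 then (f x - f y) ^ 2 else 0) = 0 := by
        intro p hp
        rw [if_neg]
        intro hsw1
        exact hsw ⟨p, hp, hsw1⟩
      rw [Finset.sum_eq_zero hzero]
      split_ifs
      · exact sq_nonneg _
      · exact le_refl _
  rw [← ip_eq_sum_sq]
  exact le_trans h4 h5

end Vale.Agent.Lib.P335.Bip
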