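import Mathlib
import Vale.Agent.Lib.P335.helper26.ThreeDefs

/-!
Three-row systems: the invariant sector.  An eigenfunction of the sum of the three
row-conditional expectations with eigenvalue larger than two, of mean zero and invariant
under all swaps of equal-sum columns, vanishes.  The combinatorial inputs (factorisation
through hole counts, level counting, the abstract three-site lemma) are hypotheses here.
-/

namespace Vale.Agent.Lib.P335.Bip

open Finset

theorem pairs_fin3 : (univ : Finset (Fin 3)).powersetCard 2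
    = univ.image (fun l => (univ : Finset (Fin 3)).erase l) := by
  decide

theorem erase_inj_fin3 :
    Function.Injective (fun l : Fin 3 => (univ : Finset (Fin 3)).erase l) := by
  decide

theorem sum_pairs_fin3 {M : Type*} [AddCommMonoid M] (φ : Finset (Fin 3) → M) :
    ∑ p ∈ (univ : Finset (Fin 3)).powersetCard 2, φ p = ∑ l : Fin 3, φ (univ.erase l) := by
  rw [pairs_fin3, Finset.sum_image (fun a _ b _ h => erase_inj_fin3 h)]

section inv

variable {n : ℕ} {r : Fin 3 → ℕ} {c : Fin n → ℕ}

theorem hcnt_of_mask (l : Fin 3) (x y : Om 3 n r c)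
    (h : mask ((univ : Finset (Fin 3)).erase l) x.1 = mask ((univ : Finset (Fin 3)).erase l) y.1) :
    hcnt c x.1 l = hcnt c y.1 l := by
  have h1 : x.1 l = y.1 l := by
    have h2 := congrFun h l
    unfold mask at h2
    simpa using h2
  unfold hcnt
  rw [h1]

/-- The vector of hole counts of a three-row matrix. -/
def lev3 (c : Fin n → ℕ) (x : Mat 3 n) : Fin 3 → ℕ := fun l => hcnt c x l

theorem lev3_apply (c : Fin n → ℕ) (x : Mat 3 n) (l : Fin 3) : lev3 c x l = hcnt c x l := rfl

/-- The invariant sector of the three-row lemma, from its combinatorial inputs. -/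
theorem threeRow_inv_of
    (hfac : ∀ (F : Om 3 n r c → ℝ),
      (∀ (u u' : Fin n) (h : c u = c u') (x : Om 3 n r c), F (swapOm u u' h x) = F x) →
        (∀ x y : Om 3 n r c, (∀ l, hcnt c x.1 l = hcnt c y.1 l) → F x = F y) ∧
        (∀ (l : Fin 3) (x y : Om 3 n r c), hcnt c x.1 l = hcnt c y.1 l →
          R (univ.erase l) F x = R (univ.erase l) F y))
    (hsum : ∀ x : Om 3 n r c, ∑ l, hcnt c x.1 l = ncol c 2)
    (hcount : ∀ (_ : Om 3 n r c) (b : Fin 3 → ℕ), ∑ l, b l = ncol c 2 →
      ((univ.filter (fun x : Om 3 n r c => ∀ l, hcnt c x.1 l = b l)).card : ℝ)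
        = ((ncol c 2).factorial : ℝ) * ((ncol c 1).factorial : ℝ) * ∏ l, w3 r c l (b l))
    (h3site : ∀ (γ : Fin 3 → ℕ → ℝ) (lam : ℝ), 1 < lam →
      (∀ l, ∑ b ∈ simplex (ncol c 2), (∏ i, w3 r c i (b i)) * γ l (b l) = 0) →
      (∀ l s, lam * (∑ b ∈ (simplex (ncol c 2)).filter (fun b => b l = s), ∏ i, w3 r c i (b i))
          * γ l s
        = ∑ b ∈ (simplex (ncol c 2)).filter (fun b => b l = s),
            (∏ i, w3 r c i (b i)) * ∑ j ∈ (univ : Finset (Fin 3)).erase l, γ j (b j)) →
      ∀ b ∈ simplex (ncol c 2), 0 < ∏ i, w3 r c i (b i) → ∀ l, γ l (b l) = 0)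
    (F : Om 3 n r c → ℝ) (μ : ℝ) (hμ : 2 < μ)
    (hev : ∀ x, ∑ l : Fin 3, R (univ.erase l) F x = μ * F x)
    (hinv : ∀ (u u' : Fin n) (h : c u = c u') (x : Om 3 n r c), F (swapOm u u' h x) = F x)
    (hmean : ∑ x, F x = 0) : F = 0 := by
  funext x0
  obtain ⟨_, hB⟩ := hfac F hinv
  have hCpos : (0 : ℝ) < ((ncol c 2).factorial : ℝ) * ((ncol c 1).factorial : ℝ) := by
    positivity
  -- the conditional expectations are functions of the hole counts
  obtain ⟨γ, hγ⟩ : ∃ γ : Fin 3 → ℕ → ℝ, ∀ l (x : Om 3 n r c),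
      R (univ.erase l) F x = γ l (hcnt c x.1 l) := by
    classical
    refine ⟨fun l t => if h : ∃ x : Om 3 n r c, hcnt c x.1 l = t then
      R (univ.erase l) F (Classical.choose h) else 0, fun l x => ?_⟩
    have hex : ∃ y : Om 3 n r c, hcnt c y.1 l = hcnt c x.1 l := ⟨x, rfl⟩
    simp only
    rw [dif_pos hex]
    exact hB l _ _ (Classical.choose_spec hex).symm
  -- levels lie in the simplex
  have hmem : ∀ x : Om 3 n r c, lev3 c x.1 ∈ simplex (ncol c 2) := by
    intro x
    unfold simplex
    rw [Finset.mem_filter, Fintype.mem_piFinset]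
    refine ⟨fun l => ?_, hsum x⟩
    rw [Finset.mem_range, Nat.lt_succ_iff, ← hsum x]
    exact Finset.single_le_sum (f := fun l => hcnt c x.1 l) (fun _ _ => Nat.zero_le _)
      (Finset.mem_univ l)
  -- sums over matrices as weighted sums over levels
  have hlevsum : ∀ Φ : (Fin 3 → ℕ) → ℝ,
      ∑ x : Om 3 n r c, Φ (lev3 c x.1)
        = ((ncol c 2).factorial : ℝ) * ((ncol c 1).factorial : ℝ)
          * ∑ b ∈ simplex (ncol c 2), (∏ i, w3 r c i (b i)) * Φ b := by
    intro Φ
    rw [← Finset.sum_fiberwise_of_maps_to (g := fun x : Om 3 n r c => lev3 c x.1)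
      (t := simplex (ncol c 2)) (fun x _ => hmem x), Finset.mul_sum]
    refine Finset.sum_congr rfl (fun b hb => ?_)
    have hbsum : ∑ l, b l = ncol c 2 := (Finset.mem_filter.mp hb).2
    have hcnt' := hcount x0 b hbsum
    have hfil : (univ.filter (fun x : Om 3 n r c => lev3 c x.1 = b))
        = univ.filter (fun x : Om 3 n r c => ∀ l, hcnt c x.1 l = b l) := by
      ext x
      simp only [Finset.mem_filter, Finset.mem_univ, true_and]
      exact funext_iff
    rw [Finset.sum_congr rfl (fun x hx => by rw [(Finset.mem_filter.mp hx).2]),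
      Finset.sum_const, nsmul_eq_mul, hfil, hcnt']
    ring
  -- mean zero
  have hmean_abs : ∀ l, ∑ b ∈ simplex (ncol c 2), (∏ i, w3 r c i (b i)) * γ l (b l) = 0 := by
    intro l
    have h1 := hlevsum (fun b => γ l (b l))
    have h2 : ∑ x : Om 3 n r c, γ l (lev3 c x.1 l) = 0 := by
      have h3 : ∀ x : Om 3 n r c, γ l (lev3 c x.1 l) = R (univ.erase l) F x := fun x =>
        (hγ l x).symm
      rw [Finset.sum_congr rfl (fun x _ => h3 x)]
      unfold R
      rw [sum_cexp, hmean]
    rw [h2] at h1
    rcases mul_eq_zero.mp h1.symm with h | h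
    · exact absurd h hCpos.ne'
    · exact h
  -- the eigenvalue equation on levels
  have hevx : ∀ x : Om 3 n r c, μ * F x = ∑ j : Fin 3, γ j (lev3 c x.1 j) := by
    intro x
    rw [← hev x]
    exact Finset.sum_congr rfl (fun j _ => hγ j x)
  have hev_abs : ∀ l s, (μ - 1)
      * (∑ b ∈ (simplex (ncol c 2)).filter (fun b => b l = s), ∏ i, w3 r c i (b i)) * γ l s
      = ∑ b ∈ (simplex (ncol c 2)).filter (fun b => b l = s),
          (∏ i, w3 r c i (b i)) * ∑ j ∈ (univ : Finset (Fin 3)).erase l, γ j (b j) := by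
    intro l s
    -- duality
    have hdual : ∑ x : Om 3 n r c,
        (if lev3 c x.1 l = s then (1 : ℝ) else 0) * R (univ.erase l) F x
        = ∑ x : Om 3 n r c, (if lev3 c x.1 l = s then (1 : ℝ) else 0) * F x := by
      have hfact : cexp (fun x : Om 3 n r c => mask ((univ : Finset (Fin 3)).erase l) x.1)
          (fun x => if lev3 c x.1 l = s then (1 : ℝ) else 0)
          = fun x => if lev3 c x.1 l = s then (1 : ℝ) else 0 := by
        apply cexp_of_factor
        intro x y hxy
        have := hcnt_of_mask l x y hxy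
        show (if hcnt c x.1 l = s then (1 : ℝ) else 0) = if hcnt c y.1 l = s then (1 : ℝ) else 0
        rw [this]
      have h1 := cexp_symm (fun x : Om 3 n r c => mask ((univ : Finset (Fin 3)).erase l) x.1)
        (fun x => if lev3 c x.1 l = s then (1 : ℝ) else 0) F
      rw [hfact] at h1
      exact h1
    have hL : ∑ x : Om 3 n r c,
        (if lev3 c x.1 l = s then (1 : ℝ) else 0) * R (univ.erase l) F x
        = ((ncol c 2).factorial : ℝ) * ((ncol c 1).factorial : ℝ)
          * ((∑ b ∈ (simplex (ncol c 2)).filter (fun b => b l = s), ∏ i, w3 r c i (b i))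
            * γ l s) := by
      calc ∑ x : Om 3 n r c, (if lev3 c x.1 l = s then (1 : ℝ) else 0) * R (univ.erase l) F x
          = ∑ x : Om 3 n r c,
              (if lev3 c x.1 l = s then (1 : ℝ) else 0) * γ l (lev3 c x.1 l) :=
            Finset.sum_congr rfl (fun x _ => by rw [hγ l x, lev3_apply])
        _ = ((ncol c 2).factorial : ℝ) * ((ncol c 1).factorial : ℝ)
              * ∑ b ∈ simplex (ncol c 2), (∏ i, w3 r c i (b i))
                * ((if b l = s then (1 : ℝ) else 0) * γ l (b l)) :=
            hlevsum (fun b : Fin 3 → ℕ => (if b l = s then (1 : ℝ) else 0) * γ l (b l))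
        _ = _ := by
            rw [Finset.sum_mul, Finset.sum_filter]
            congr 1
            refine Finset.sum_congr rfl (fun b _ => ?_)
            by_cases hb : b l = s
            · simp [hb]
            · simp [hb]
    have hR : μ * ∑ x : Om 3 n r c, (if lev3 c x.1 l = s then (1 : ℝ) else 0) * F x
        = ((ncol c 2).factorial : ℝ) * ((ncol c 1).factorial : ℝ)
          * ((∑ b ∈ (simplex (ncol c 2)).filter (fun b => b l = s), ∏ i, w3 r c i (b i)) * γ l s
          + ∑ b ∈ (simplex (ncol c 2)).filter (fun b => b l = s),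
              (∏ i, w3 r c i (b i)) * ∑ j ∈ (univ : Finset (Fin 3)).erase l, γ j (b j)) := by
      calc μ * ∑ x : Om 3 n r c, (if lev3 c x.1 l = s then (1 : ℝ) else 0) * F x
          = ∑ x : Om 3 n r c, (if lev3 c x.1 l = s then (1 : ℝ) else 0)
              * ∑ j : Fin 3, γ j (lev3 c x.1 j) := by
            rw [Finset.mul_sum]
            exact Finset.sum_congr rfl (fun x _ => by rw [mul_left_comm, hevx x])
        _ = ((ncol c 2).factorial : ℝ) * ((ncol c 1).factorial : ℝ)
              * ∑ b ∈ simplex (ncol c 2), (∏ i, w3 r c i (b i))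
                * ((if b l = s then (1 : ℝ) else 0) * ∑ j : Fin 3, γ j (b j)) :=
            hlevsum (fun b : Fin 3 → ℕ => (if b l = s then (1 : ℝ) else 0) * ∑ j : Fin 3, γ j (b j))
        _ = _ := by
            rw [Finset.sum_mul, ← Finset.sum_add_distrib, Finset.sum_filter]
            congr 1
            refine Finset.sum_congr rfl (fun b _ => ?_)
            by_cases hb : b l = s
            · rw [if_pos hb, if_pos hb, one_mul,
                ← Finset.add_sum_erase univ (fun j => γ j (b j)) (Finset.mem_univ l), hb]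
              ring
            · rw [if_neg hb, if_neg hb]
              ring
    rw [← hdual, hL] at hR
    have hR2 : ((ncol c 2).factorial : ℝ) * ((ncol c 1).factorial : ℝ)
        * (μ * ((∑ b ∈ (simplex (ncol c 2)).filter (fun b => b l = s), ∏ i, w3 r c i (b i))
          * γ l s))
        = ((ncol c 2).factorial : ℝ) * ((ncol c 1).factorial : ℝ)
          * ((∑ b ∈ (simplex (ncol c 2)).filter (fun b => b l = s), ∏ i, w3 r c i (b i)) * γ l s
          + ∑ b ∈ (simplex (ncol c 2)).filter (fun b => b l = s),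
              (∏ i, w3 r c i (b i)) * ∑ j ∈ (univ : Finset (Fin 3)).erase l, γ j (b j)) := by
      rw [← hR]
      ring
    have hR3 := mul_left_cancel₀ hCpos.ne' hR2
    linarith
  -- conclusion
  have hWpos : 0 < ∏ i, w3 r c i (lev3 c x0.1 i) := by
    have h1 := hcount x0 (lev3 c x0.1) (hsum x0)
    have h2 : (0 : ℝ) < ((univ.filter (fun x : Om 3 n r c =>
        ∀ l, hcnt c x.1 l = lev3 c x0.1 l)).card : ℝ) := by
      have : x0 ∈ univ.filter (fun x : Om 3 n r c => ∀ l, hcnt c x.1 l = lev3 c x0.1 l) := by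
        rw [Finset.mem_filter]
        exact ⟨Finset.mem_univ _, fun l => rfl⟩
      exact_mod_cast Finset.card_pos.mpr ⟨x0, this⟩
    rw [h1] at h2
    exact (pos_iff_pos_of_mul_pos h2).mp hCpos
  have hzero := h3site γ (μ - 1) (by linarith) hmean_abs hev_abs (lev3 c x0.1) (hmem x0) hWpos
  have h5 := hevx x0
  rw [Finset.sum_eq_zero (fun j _ => hzero j)] at h5
  have hμ0 : μ ≠ 0 := by linarith
  simpa using (mul_eq_zero.mp h5).resolve_left hμ0

end inv

end Vale.Agent.Lib.P335.Bip
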