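import Mathlib
import Vale.Agent.Lib.P335.helper26.ThreeInv

/-!
The three-row inequality from its two parts: the antisymmetric sector (pointwise bound)
and the invariant sector.
-/

namespace Vale.Agent.Lib.P335.Bip

open Finset

section threerow

variable {n : ℕ} {r : Fin 3 → ℕ} {c : Fin n → ℕ}

theorem R_univ_of_sum_zero {m : ℕ} {r : Fin m → ℕ} (F : Om m n r c → ℝ) (hF : ∑ x, F x = 0) :
    R (univ : Finset (Fin m)) F = 0 := by
  funext x
  unfold R
  rw [cexp_apply]
  have hfil : (univ.filter (fun y : Om m n r c => mask univ y.1 = mask univ x.1)) = univ := by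
    ext y
    simp only [Finset.mem_filter, Finset.mem_univ, true_and, iff_true]
    funext a
    unfold mask
    simp
  rw [hfil, hF, zero_div]
  rfl

/-- The three-row inequality, from the antisymmetric and the invariant sector. -/
theorem threeRow_of
    (hanti : ∀ (u u' : Fin n) (h : c u = c u') (F : Om 3 n r c → ℝ),
      (∀ x, F (swapOm u u' h x) = - F x) →
        ∑ p ∈ (univ : Finset (Fin 3)).powersetCard 2, ip F (R p F) ≤ 2 * ip F F)
    (hinvsec : ∀ (F : Om 3 n r c → ℝ) (μ : ℝ), 2 < μ →
      (∀ x, ∑ l : Fin 3, R (univ.erase l) F x = μ * F x) →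
      (∀ (u u' : Fin n) (h : c u = c u') (x : Om 3 n r c), F (swapOm u u' h x) = F x) →
      ∑ x, F x = 0 → F = 0)
    (g : Om 3 n r c → ℝ) :
    ∑ q ∈ (univ : Finset (Fin 3)).powersetCard 2, ip g (R q g) ≤ 2 * ip g g + ip g (R univ g) := by
  classical
  set A : (Om 3 n r c → ℝ) →ₗ[ℝ] (Om 3 n r c → ℝ) :=
    (∑ q ∈ (univ : Finset (Fin 3)).powersetCard 2, R q) - R univ with hA
  have hAapp : ∀ F : Om 3 n r c → ℝ, A F
      = (∑ q ∈ (univ : Finset (Fin 3)).powersetCard 2, R q F) - R univ F := by
    intro F
    rw [hA, LinearMap.sub_apply, LinearMap.sum_apply]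
  have hAsymm : ∀ F G : Om 3 n r c → ℝ, ip F (A G) = ip (A F) G := by
    intro F G
    rw [hAapp, hAapp, ip_sub_right, ip_sub_left, ip_sum_right, ip_sum_left]
    congr 1
    · exact Finset.sum_congr rfl (fun q _ => cexp_symm _ F G)
    · exact cexp_symm _ F G
  have heig : ∀ (μ : ℝ) (F : Om 3 n r c → ℝ), F ≠ 0 → A F = μ • F → μ ≤ 2 := by
    intro μ F hF0 hev
    by_contra hcon
    have hμ : 2 < μ := not_le.mp hcon
    -- pointwise eigen-equation
    have hevx : ∀ x, (∑ q ∈ (univ : Finset (Fin 3)).powersetCard 2, R q F x) - R univ F x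
        = μ * F x := by
      intro x
      have h1 := congrFun hev x
      rw [hAapp] at h1
      simpa [Finset.sum_apply] using h1
    -- mean zero
    have hsumF : ∑ x, F x = 0 := by
      have h1 : ∑ x, ((∑ q ∈ (univ : Finset (Fin 3)).powersetCard 2, R q F x) - R univ F x)
          = 2 * ∑ x, F x := by
        rw [Finset.sum_sub_distrib, Finset.sum_comm]
        have h2 : ∀ q : Finset (Fin 3), ∑ x, R q F x = ∑ x, F x := fun q => sum_cexp _ F
        rw [Finset.sum_congr rfl (fun q _ => h2 q), h2 univ, Finset.sum_const,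
          Finset.card_powersetCard]
        simp only [Finset.card_univ, Fintype.card_fin, nsmul_eq_mul]
        norm_num
        ring
      have h3 : ∑ x, ((∑ q ∈ (univ : Finset (Fin 3)).powersetCard 2, R q F x) - R univ F x)
          = μ * ∑ x, F x := by
        rw [Finset.mul_sum]
        exact Finset.sum_congr rfl (fun x _ => hevx x)
      rw [h1] at h3
      have h4 : (μ - 2) * ∑ x, F x = 0 := by linarith
      rcases mul_eq_zero.mp h4 with h | h
      · linarith
      · exact h
    have hR0 : R (univ : Finset (Fin 3)) F = 0 := R_univ_of_sum_zero F hsumF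
    have hevP : ∀ x, ∑ q ∈ (univ : Finset (Fin 3)).powersetCard 2, R q F x = μ * F x := by
      intro x
      have h1 := hevx x
      rw [hR0] at h1
      simpa using h1
    have hevl : ∀ x, ∑ l : Fin 3, R (univ.erase l) F x = μ * F x := by
      intro x
      rw [← hevP x, sum_pairs_fin3 (fun q => R q F x)]
    -- invariance under swaps of equal-sum columns
    have hinvF : ∀ (u u' : Fin n) (h : c u = c u') (x : Om 3 n r c),
        F (swapOm u u' h x) = F x := by
      intro u u' h x
      set G : Om 3 n r c → ℝ := F - F ∘ swapOm u u' h with hG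
      have hGanti : ∀ y, G (swapOm u u' h y) = - G y := by
        intro y
        simp only [hG, Pi.sub_apply, Function.comp_apply, swapOm_swapOm]
        ring
      have hRG : ∀ (q : Finset (Fin 3)) (y : Om 3 n r c),
          R q G y = R q F y - R q F (swapOm u u' h y) := by
        intro q y
        rw [hG, map_sub, Pi.sub_apply, R_swapOm]
        rfl
      have hGev : ∀ y, ∑ q ∈ (univ : Finset (Fin 3)).powersetCard 2, R q G y = μ * G y := by
        intro y
        rw [Finset.sum_congr rfl (fun q _ => hRG q y), Finset.sum_sub_distrib, hevP, hevP]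
        simp only [hG, Pi.sub_apply, Function.comp_apply]
        ring
      have h1 := hanti u u' h G hGanti
      have h2 : ∑ p ∈ (univ : Finset (Fin 3)).powersetCard 2, ip G (R p G) = μ * ip G G := by
        rw [← ip_sum_right, ← ip_smul_right]
        congr 1
        funext y
        rw [Finset.sum_apply, hGev y]
        rfl
      rw [h2] at h1
      have h3 : ip G G ≤ 0 := by
        have := ip_self_nonneg G
        nlinarith
      have h4 : G = 0 := ip_self_eq_zero.mp (le_antisymm h3 (ip_self_nonneg G))
      have h5 := congrFun h4 x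
      simp only [hG, Pi.sub_apply, Function.comp_apply, Pi.zero_apply] at h5
      linarith
    exact hF0 (hinvsec F μ hμ hevl hinvF hsumF)
  have key := form_le_of_eigen A hAsymm 2 heig g
  rw [hAapp, ip_sub_right, ip_sum_right] at key
  linarith

end threerow

end Vale.Agent.Lib.P335.Bip
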