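import Mathlib
import Vale.Agent.Lib.P335.helper26.ThreeRow
import Vale.Agent.Lib.P335.helper26.BipPoincare
import Vale.Agent.Lib.P335.helper3.ThreeAnti
import Vale.Agent.Lib.P335.helper93.LevelCount
import Vale.Agent.Lib.P335.helper63.InvFactor
import Vale.Agent.Lib.P335.helper6.ThreeSite

/-!
The spectral gap of the switch graph on the 0/1 matrices with prescribed row and column sums
is at least two: the unconditional three-row inequality and the resulting Poincare inequality.
-/

namespace Vale.Agent.Lib.P335.Bip

open Finset

/-- The three-row inequality: for three-row margin matrices the sum of the three row-pair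
conditional expectations is at most twice the identity plus the mean projection. -/
theorem threeRow (n : ℕ) (r : Fin 3 → ℕ) (c : Fin n → ℕ) (g : Om 3 n r c → ℝ) :
    ∑ q ∈ (univ : Finset (Fin 3)).powersetCard 2, ip g (R q g)
      ≤ 2 * ip g g + ip g (R univ g) :=
  threeRow_of
    (fun u u' h F hF => threeRow_anti u u' h F hF)
    (fun F μ hμ hev hinv hmean =>
      threeRow_inv_of
        (fun F hinv => inv_factor F hinv)
        sum_hcnt
        (fun x0 b hb => level_count x0 b hb)
        (fun γ lam hlam hm he =>
          three_site_eigen (w3 r c) (w3_nonneg r c) (w3_logconcave r c) (ncol c 2) γ lam hlam hm he)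
        F μ hμ hev hinv hmean)
    g

open scoped Classical in
/-- Spectral gap of the switch graph on margin matrices: for every function `f` of mean zero
on the 0/1 matrices with row sums `r` and column sums `c`, four times its squared norm is at
most the sum of `(f x - f y) ^ 2` over the ordered pairs of switch-adjacent matrices. -/
theorem bip_poincare (m n : ℕ) (r : Fin m → ℕ) (c : Fin n → ℕ) (f : Om m n r c → ℝ)
    (hf : ∑ x, f x = 0) :
    4 * ∑ x, f x ^ 2 ≤ ∑ x, ∑ y, if IsSwitch x.1 y.1 then (f x - f y) ^ 2 else 0 :=
  bip_poincare_of_threeRow threeRow m n r c f hf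

end Vale.Agent.Lib.P335.Bip
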