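import Mathlib
import Vale.Agent.Lib.P335.helper26.BipMain

/-!
Unconditional forms of the inputs used by the other blocks of P335: the row-pair heat-bath gap,
the two-row switch inequality, and the three-row and two-row inequalities for the row triples and
row pairs of an arbitrary margin system.
-/

namespace Vale.Agent.Lib.P335.Bip

open Finset

/-- The row-pair heat-bath gap for every margin system. -/
theorem hgap (m n : ℕ) (r : Fin m → ℕ) (c : Fin n → ℕ) (f : Om m n r c → ℝ) :
    ip f f - ip f (R univ f)
      ≤ ∑ p ∈ (univ : Finset (Fin m)).powersetCard 2, (ip f f - ip f (R p f)) :=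
  hgap_of_threeRow threeRow m n r c f

open scoped Classical in
/-- The two-row switch inequality: for two-row margin matrices the switch Dirichlet form
dominates four times the variance. -/
theorem twoRow (n : ℕ) (r : Fin 2 → ℕ) (c : Fin n → ℕ) (g : Om 2 n r c → ℝ) :
    4 * (ip g g - ip g (R univ g))
      ≤ ∑ x, ∑ y, if IsSwitch x.1 y.1 then (g x - g y) ^ 2 else 0 :=
  twoRow_of_hgap hgap n r c g

/-- The three-row inequality for every row triple of a margin system. -/
theorem row_triple {m n : ℕ} {r : Fin m → ℕ} {c : Fin n → ℕ} (T : Finset (Fin m))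
    (hT : T.card = 3) (f : Om m n r c → ℝ) :
    ∑ p ∈ T.powersetCard 2, ip f (R p f) ≤ 2 * ip f f + ip f (R T f) :=
  triple_of_threeRow threeRow T hT f

open scoped Classical in
/-- The two-row switch inequality for every row pair of a margin system. -/
theorem row_pair {m n : ℕ} {r : Fin m → ℕ} {c : Fin n → ℕ} (p : Finset (Fin m))
    (hp : p.card = 2) (f : Om m n r c → ℝ) :
    4 * (ip f f - ip f (R p f))
      ≤ ∑ x, ∑ y, if IsSwitchIn p x.1 y.1 then (f x - f y) ^ 2 else 0 :=
  pair_of_twoRow twoRow p hp f

end Vale.Agent.Lib.P335.Bip
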