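import Mathlib
import Vale.Agent.Lib.P335.helper26.Abstract

/-!
Abstract commutation of conditional expectations from a square-completion property
(P335, graph case, block (c)).

`kp`, `kq` are two keys and `mo` a third one.  If a point is determined by `(kp, kq, mo)` and
every configuration `G, G₁, G₂` with `G` in the `(kp, mo)`-class of `G₁` and `kq G₁ = kq G₂`
can be completed by a point `G'` in the `(kp, mo)`-class of `G₂` with `kq G' = kq G`, then
`cexp (kp, mo)` commutes with `cexp (kq, mo)` and with `cexp kq`.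
-/

namespace Vale.Agent.Lib.P335.H26G

open Finset
open Vale.Agent.Lib.P335.Bip

variable {Ω Kp Kq Mm : Type*} [Fintype Ω] [DecidableEq Ω] [DecidableEq Kp] [DecidableEq Kq]
  [DecidableEq Mm]

/-- The square completion gives a bijection between the `(kp, mo)`-classes of two points with
the same `kq`; sums of functions that are preserved along it agree. -/
theorem square_sum (kp : Ω → Kp) (kq : Ω → Kq) (mo : Ω → Mm)
    (hinj : ∀ G G', kp G = kp G' → kq G = kq G' → mo G = mo G' → G = G')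
    (hsq : ∀ G G₁ G₂, kp G = kp G₁ → mo G = mo G₁ → kq G₁ = kq G₂ →
      ∃ G', kq G' = kq G ∧ kp G' = kp G₂ ∧ mo G' = mo G₂)
    (G₁ G₂ : Ω) (h12 : kq G₁ = kq G₂) (g : Ω → ℝ)
    (hg : ∀ G G', kq G = kq G' → kp G = kp G₁ → mo G = mo G₁ → kp G' = kp G₂ → mo G' = mo G₂ →
      g G = g G') :
    ∑ G ∈ univ.filter (fun G => (kp G, mo G) = (kp G₁, mo G₁)), g G
      = ∑ G' ∈ univ.filter (fun G' => (kp G', mo G') = (kp G₂, mo G₂)), g G' := by
  have hex : ∀ G, (kp G = kp G₁ ∧ mo G = mo G₁) →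
      ∃ G', kq G' = kq G ∧ kp G' = kp G₂ ∧ mo G' = mo G₂ :=
    fun G h => hsq G G₁ G₂ h.1 h.2 h12
  have hne : Nonempty Ω := ⟨G₁⟩
  choose! φ hφ using hex
  refine Finset.sum_bij (fun G _ => φ G) ?_ ?_ ?_ ?_
  · intro G hG
    rw [mem_filter, Prod.mk.injEq] at hG
    rw [mem_filter, Prod.mk.injEq]
    exact ⟨mem_univ _, (hφ G hG.2).2.1, (hφ G hG.2).2.2⟩
  · intro G hG G' hG' hGG'
    rw [mem_filter, Prod.mk.injEq] at hG hG'
    have h1 := (hφ G hG.2).1
    have h2 := (hφ G' hG'.2).1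
    have e : φ G = φ G' := hGG'
    refine hinj G G' (hG.2.1.trans hG'.2.1.symm) ?_ (hG.2.2.trans hG'.2.2.symm)
    rw [← h1, ← h2, e]
  · intro G' hG'
    rw [mem_filter, Prod.mk.injEq] at hG'
    obtain ⟨G, hG1, hG2, hG3⟩ := hsq G' G₂ G₁ hG'.2.1 hG'.2.2 h12.symm
    have hGm : G ∈ univ.filter (fun G => (kp G, mo G) = (kp G₁, mo G₁)) := by
      rw [mem_filter, Prod.mk.injEq]
      exact ⟨mem_univ _, hG2, hG3⟩
    refine ⟨G, hGm, ?_⟩
    have h := hφ G ⟨hG2, hG3⟩
    exact hinj (φ G) G' (h.2.1.trans hG'.2.1.symm) (h.1.trans hG1) (h.2.2.trans hG'.2.2.symm)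
  · intro G hG
    rw [mem_filter, Prod.mk.injEq] at hG
    have h := hφ G hG.2
    exact hg G (φ G) h.1.symm hG.2.1 hG.2.2 h.2.1 h.2.2

/-- **Commutations from the square.** -/
theorem comm_of_square (kp : Ω → Kp) (kq : Ω → Kq) (mo : Ω → Mm)
    (hinj : ∀ G G', kp G = kp G' → kq G = kq G' → mo G = mo G' → G = G')
    (hsq : ∀ G G₁ G₂, kp G = kp G₁ → mo G = mo G₁ → kq G₁ = kq G₂ →
      ∃ G', kq G' = kq G ∧ kp G' = kp G₂ ∧ mo G' = mo G₂) :
    (∀ f : Ω → ℝ, cexp (fun G => (kp G, mo G)) (cexp (fun G => (kq G, mo G)) f)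
        = cexp (fun G => (kq G, mo G)) (cexp (fun G => (kp G, mo G)) f)) ∧
    (∀ f : Ω → ℝ, cexp (fun G => (kp G, mo G)) (cexp kq f)
        = cexp kq (cexp (fun G => (kp G, mo G)) f)) := by
  constructor
  · intro f
    apply cexp_comm_of_preserves
    intro g hg G₁ G₂ h12
    rw [Prod.mk.injEq] at h12
    have hg' : ∀ G G', kq G = kq G' → mo G = mo G' → g G = g G' := by
      intro G G' h1 h2
      apply hg
      rw [Prod.mk.injEq]
      exact ⟨h1, h2⟩
    have h1 := square_sum kp kq mo hinj hsq G₁ G₂ h12.1 g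
      (fun G G' hq _ hm _ hm' => hg' G G' hq (hm.trans (h12.2.trans hm'.symm)))
    have h2 := square_sum kp kq mo hinj hsq G₁ G₂ h12.1 (fun _ => (1 : ℝ))
      (fun _ _ _ _ _ _ _ => rfl)
    simp only [Finset.sum_const, nsmul_eq_mul, mul_one] at h2
    rw [cexp_apply, cexp_apply, h1, h2]
  · intro f
    apply cexp_comm_of_preserves
    intro g hg G₁ G₂ h12
    have h1 := square_sum kp kq mo hinj hsq G₁ G₂ h12 g
      (fun G G' hq _ _ _ _ => hg G G' hq)
    have h2 := square_sum kp kq mo hinj hsq G₁ G₂ h12 (fun _ => (1 : ℝ))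
      (fun _ _ _ _ _ _ _ => rfl)
    simp only [Finset.sum_const, nsmul_eq_mul, mul_one] at h2
    rw [cexp_apply, cexp_apply, h1, h2]

end Vale.Agent.Lib.P335.H26G
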