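import Vale.Agent.Lib.P335.helper72.GraphDefs

/-!
Slot splicing on the graphs with a prescribed degree vector (P335, graph case).

A slot is an unordered pair of vertices.  For a set `A` of slots, `offKey A G` is the part of
the graph `G` outside the slots of `A`, so that `cexp (fun G => offKey A G.1)` resamples the
slots of `A` given the rest of the graph.  The main result `slot_comm` says that resamplings
of two disjoint slot sets commute on `Omega n d`.
-/

namespace Vale.Agent.Lib.P335.H26G

open Finset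
open scoped Classical
open Vale.Agent.Lib.P335 Vale.Agent.Lib.P335.Bip

variable {n : ℕ}

/-- The part of the graph `G` outside the slot set `A`. -/
def offKey (A : Set (Sym2 (Fin n))) (G : SimpleGraph (Fin n)) : Set (Sym2 (Fin n)) :=
  G.edgeSet \ A

theorem offKey_eq_iff (A : Set (Sym2 (Fin n))) (G G' : SimpleGraph (Fin n)) :
    offKey A G = offKey A G' ↔ ∀ a b, s(a, b) ∉ A → (G.Adj a b ↔ G'.Adj a b) := by
  unfold offKey
  constructor
  · intro h a b hab
    have h1 : s(a, b) ∈ G.edgeSet \ A ↔ s(a, b) ∈ G'.edgeSet \ A := by rw [h]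
    simp only [Set.mem_sdiff, SimpleGraph.mem_edgeSet] at h1
    constructor
    · intro hG
      exact (h1.mp ⟨hG, hab⟩).1
    · intro hG
      exact (h1.mpr ⟨hG, hab⟩).1
  · intro h
    ext e
    induction e using Sym2.ind with
    | _ a b =>
      simp only [Set.mem_sdiff, SimpleGraph.mem_edgeSet]
      constructor
      · rintro ⟨hG, hA⟩
        exact ⟨(h a b hA).mp hG, hA⟩
      · rintro ⟨hG, hA⟩
        exact ⟨(h a b hA).mpr hG, hA⟩

/-- The graph with the slots of `A` taken from `G1` and all other slots taken from `G2`. -/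
def spliceG (A : Set (Sym2 (Fin n))) (G1 G2 : SimpleGraph (Fin n)) : SimpleGraph (Fin n) where
  Adj a b := (s(a, b) ∈ A ∧ G1.Adj a b) ∨ (s(a, b) ∉ A ∧ G2.Adj a b)
  symm := ⟨fun a b h => by
    rw [Sym2.eq_swap]
    rcases h with h | h
    · exact Or.inl ⟨h.1, h.2.symm⟩
    · exact Or.inr ⟨h.1, h.2.symm⟩⟩
  loopless := ⟨fun a h => by
    rcases h with h | h
    · exact G1.loopless.irrefl a h.2
    · exact G2.loopless.irrefl a h.2⟩

theorem spliceG_adj (A : Set (Sym2 (Fin n))) (G1 G2 : SimpleGraph (Fin n)) (a b : Fin n) :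
    (spliceG A G1 G2).Adj a b ↔ (s(a, b) ∈ A ∧ G1.Adj a b) ∨ (s(a, b) ∉ A ∧ G2.Adj a b) :=
  Iff.rfl

theorem spliceG_adj_mem (A : Set (Sym2 (Fin n))) (G1 G2 : SimpleGraph (Fin n)) {a b : Fin n}
    (h : s(a, b) ∈ A) : (spliceG A G1 G2).Adj a b ↔ G1.Adj a b := by
  rw [spliceG_adj]
  constructor
  · rintro (h1 | h1)
    · exact h1.2
    · exact absurd h h1.1
  · intro h1
    exact Or.inl ⟨h, h1⟩

theorem spliceG_adj_not_mem (A : Set (Sym2 (Fin n))) (G1 G2 : SimpleGraph (Fin n)) {a b : Fin n}
    (h : s(a, b) ∉ A) : (spliceG A G1 G2).Adj a b ↔ G2.Adj a b := by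
  rw [spliceG_adj]
  constructor
  · rintro (h1 | h1)
    · exact absurd h1.1 h
    · exact h1.2
  · intro h1
    exact Or.inr ⟨h, h1⟩

/-- The degree as a sum of indicators. -/
theorem degree_eq_sum (G : SimpleGraph (Fin n)) (v : Fin n) :
    G.degree v = ∑ b : Fin n, if G.Adj v b then 1 else 0 := by
  rw [← SimpleGraph.card_neighborFinset_eq_degree, Finset.card_eq_sum_ones,
    ← Finset.sum_filter]
  apply Finset.sum_congr
  · ext b
    simp
  · intro _ _
    rfl

/-- Splicing keeps the degrees: if `y` agrees with `x` outside `B`, `w` agrees with `x` outside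
`A`, and `A`, `B` are disjoint, then the graph with the slots of `A` from `w` and the other slots
from `y` has the degrees `d`. -/
theorem spliceG_degree {d : Fin n → ℕ} (A B : Set (Sym2 (Fin n))) (hAB : Disjoint A B)
    (x y w : Omega n d)
    (hy : ∀ a b, s(a, b) ∉ B → (y.1.Adj a b ↔ x.1.Adj a b))
    (hw : ∀ a b, s(a, b) ∉ A → (w.1.Adj a b ↔ x.1.Adj a b)) (v : Fin n) :
    (spliceG A w.1 y.1).degree v = d v := by
  have hx := x.2 v
  have hyv := y.2 v
  have hwv := w.2 v
  rw [degree_eq_sum] at hx hyv hwv ⊢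
  have key : (∑ b : Fin n, if (spliceG A w.1 y.1).Adj v b then 1 else 0)
        + (∑ b : Fin n, if x.1.Adj v b then 1 else 0)
      = (∑ b : Fin n, if w.1.Adj v b then 1 else 0)
        + (∑ b : Fin n, if y.1.Adj v b then 1 else 0) := by
    rw [← Finset.sum_add_distrib, ← Finset.sum_add_distrib]
    apply Finset.sum_congr rfl
    intro b _
    by_cases hA : s(v, b) ∈ A
    · have hB : s(v, b) ∉ B := fun h => (Set.disjoint_left.mp hAB hA) h
      have e1 := spliceG_adj_mem A w.1 y.1 hA
      have e2 := hy v b hB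
      simp only [e1, e2]
    · have e1 := spliceG_adj_not_mem A w.1 y.1 hA
      have e2 := hw v b hA
      simp only [e1, e2]
      exact add_comm _ _
  omega

/-- The spliced graph as an element of `Omega n d` (junk value `G2` if the degrees are wrong). -/
noncomputable def splice {d : Fin n → ℕ} (A : Set (Sym2 (Fin n))) (G1 G2 : Omega n d) :
    Omega n d :=
  if h : ∀ v, (spliceG A G1.1 G2.1).degree v = d v then ⟨spliceG A G1.1 G2.1, h⟩ else G2

theorem splice_val {d : Fin n → ℕ} (A B : Set (Sym2 (Fin n))) (hAB : Disjoint A B)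
    (x y w : Omega n d)
    (hy : ∀ a b, s(a, b) ∉ B → (y.1.Adj a b ↔ x.1.Adj a b))
    (hw : ∀ a b, s(a, b) ∉ A → (w.1.Adj a b ↔ x.1.Adj a b)) :
    (splice A w y).1 = spliceG A w.1 y.1 := by
  unfold splice
  rw [dif_pos (spliceG_degree A B hAB x y w hy hw)]

/-- Re-indexing of the `A`-fibre through `y` by the `A`-fibre through `x`, when `y` agrees with
`x` outside a slot set `B` disjoint from `A`. -/
theorem fibre_sum {d : Fin n → ℕ} (A B : Set (Sym2 (Fin n))) (hAB : Disjoint A B)
    (x y : Omega n d) (hxy : offKey B y.1 = offKey B x.1) (F : Omega n d → ℝ) :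
    ∑ w ∈ univ.filter (fun w : Omega n d => offKey A w.1 = offKey A x.1), F (splice A w y)
      = ∑ z ∈ univ.filter (fun z : Omega n d => offKey A z.1 = offKey A y.1), F z := by
  have hy := (offKey_eq_iff B y.1 x.1).mp hxy
  have hy' : ∀ a b, s(a, b) ∉ B → (x.1.Adj a b ↔ y.1.Adj a b) := fun a b h => (hy a b h).symm
  apply Finset.sum_nbij' (fun w => splice A w y) (fun z => splice A z x)
  · intro w hw
    rw [mem_filter] at hw ⊢
    refine ⟨mem_univ _, ?_⟩
    have hw' := (offKey_eq_iff A w.1 x.1).mp hw.2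
    rw [splice_val A B hAB x y w hy hw', offKey_eq_iff]
    intro a b hab
    exact spliceG_adj_not_mem A w.1 y.1 hab
  · intro z hz
    rw [mem_filter] at hz ⊢
    refine ⟨mem_univ _, ?_⟩
    have hz' := (offKey_eq_iff A z.1 y.1).mp hz.2
    rw [splice_val A B hAB y x z hy' hz', offKey_eq_iff]
    intro a b hab
    exact spliceG_adj_not_mem A z.1 x.1 hab
  · intro w hw
    rw [mem_filter] at hw
    have hw' := (offKey_eq_iff A w.1 x.1).mp hw.2
    have hval : (splice A w y).1 = spliceG A w.1 y.1 := splice_val A B hAB x y w hy hw'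
    have hs : ∀ a b, s(a, b) ∉ A → ((splice A w y).1.Adj a b ↔ y.1.Adj a b) := by
      intro a b hab
      rw [hval]
      exact spliceG_adj_not_mem A w.1 y.1 hab
    apply Subtype.ext
    rw [splice_val A B hAB y x (splice A w y) hy' hs, hval]
    ext a b
    by_cases hab : s(a, b) ∈ A
    · rw [spliceG_adj_mem A _ _ hab, spliceG_adj_mem A _ _ hab]
    · rw [spliceG_adj_not_mem A _ _ hab]
      exact (hw' a b hab).symm
  · intro z hz
    rw [mem_filter] at hz
    have hz' := (offKey_eq_iff A z.1 y.1).mp hz.2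
    have hval : (splice A z x).1 = spliceG A z.1 x.1 := splice_val A B hAB y x z hy' hz'
    have hs : ∀ a b, s(a, b) ∉ A → ((splice A z x).1.Adj a b ↔ x.1.Adj a b) := by
      intro a b hab
      rw [hval]
      exact spliceG_adj_not_mem A z.1 x.1 hab
    apply Subtype.ext
    rw [splice_val A B hAB x y (splice A z x) hy hs, hval]
    ext a b
    by_cases hab : s(a, b) ∈ A
    · rw [spliceG_adj_mem A _ _ hab, spliceG_adj_mem A _ _ hab]
    · rw [spliceG_adj_not_mem A _ _ hab]
      exact (hz' a b hab).symm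
  · intro w _
    rfl

/-- The spliced graph agrees outside `B` with the graph providing the slots of `A`. -/
theorem offKey_splice {d : Fin n → ℕ} (A B : Set (Sym2 (Fin n))) (hAB : Disjoint A B)
    (x y w : Omega n d) (hxy : offKey B y.1 = offKey B x.1)
    (hw : offKey A w.1 = offKey A x.1) :
    offKey B (splice A w y).1 = offKey B w.1 := by
  have hy := (offKey_eq_iff B y.1 x.1).mp hxy
  have hw' := (offKey_eq_iff A w.1 x.1).mp hw
  rw [splice_val A B hAB x y w hy hw', offKey_eq_iff]
  intro a b hab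
  by_cases hA : s(a, b) ∈ A
  · exact spliceG_adj_mem A w.1 y.1 hA
  · rw [spliceG_adj_not_mem A w.1 y.1 hA, hy a b hab]
    exact (hw' a b hA).symm

/-- **Disjoint slot sets commute.**  On `Omega n d`, the resampling of a slot set `A` and the
resampling of a disjoint slot set `B` commute. -/
theorem slot_comm {d : Fin n → ℕ} (A B : Set (Sym2 (Fin n))) (hAB : Disjoint A B)
    (f : Omega n d → ℝ) :
    cexp (fun G : Omega n d => offKey A G.1) (cexp (fun G : Omega n d => offKey B G.1) f)
      = cexp (fun G : Omega n d => offKey B G.1) (cexp (fun G : Omega n d => offKey A G.1) f) := by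
  apply cexp_comm_of_preserves
  intro g hg x y hxy
  have hxy' : offKey B y.1 = offKey B x.1 := hxy.symm
  have hsum : ∀ F : Omega n d → ℝ, (∀ u v : Omega n d, offKey B u.1 = offKey B v.1 → F u = F v) →
      ∑ w ∈ univ.filter (fun w : Omega n d => offKey A w.1 = offKey A x.1), F w
        = ∑ z ∈ univ.filter (fun z : Omega n d => offKey A z.1 = offKey A y.1), F z := by
    intro F hF
    rw [← fibre_sum A B hAB x y hxy' F]
    apply Finset.sum_congr rfl
    intro w hw
    rw [mem_filter] at hw
    exact (hF _ _ (offKey_splice A B hAB x y w hxy' hw.2)).symm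
  have h1 := hsum g hg
  have h2 := hsum (fun _ => (1 : ℝ)) (fun _ _ _ => rfl)
  simp only [Finset.sum_const, nsmul_eq_mul, mul_one] at h2
  rw [cexp_apply, cexp_apply, h1, h2]

/-- Conditional expectations with the same fibres are equal. -/
theorem cexp_eq_of_ker {Ω K K' : Type*} [Fintype Ω] [DecidableEq K] [DecidableEq K']
    (κ : Ω → K) (κ' : Ω → K') (h : ∀ x y, κ x = κ y ↔ κ' x = κ' y) : cexp κ = cexp κ' := by
  apply LinearMap.ext
  intro f
  funext x
  rw [cexp_apply, cexp_apply]
  have e : univ.filter (fun y => κ y = κ x) = univ.filter (fun y => κ' y = κ' x) := by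
    ext y
    simp only [mem_filter, mem_univ, true_and]
    exact h y x
  rw [e]

/-- **Disjoint slot sets commute**, for arbitrary keys with the kernels of `offKey A`, `offKey B`. -/
theorem slot_comm_keys {d : Fin n → ℕ} {K1 K2 : Type*} [DecidableEq K1] [DecidableEq K2]
    (k1 : Omega n d → K1) (k2 : Omega n d → K2) (A B : Set (Sym2 (Fin n))) (hAB : Disjoint A B)
    (h1 : ∀ G G' : Omega n d, k1 G = k1 G' ↔ ∀ a b, s(a, b) ∉ A → (G.1.Adj a b ↔ G'.1.Adj a b))
    (h2 : ∀ G G' : Omega n d, k2 G = k2 G' ↔ ∀ a b, s(a, b) ∉ B → (G.1.Adj a b ↔ G'.1.Adj a b))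
    (f : Omega n d → ℝ) :
    cexp k1 (cexp k2 f) = cexp k2 (cexp k1 f) := by
  have e1 : cexp k1 = cexp (fun G : Omega n d => offKey A G.1) :=
    cexp_eq_of_ker _ _ (fun G G' => by rw [h1, offKey_eq_iff])
  have e2 : cexp k2 = cexp (fun G : Omega n d => offKey B G.1) :=
    cexp_eq_of_ker _ _ (fun G G' => by rw [h2, offKey_eq_iff])
  rw [e1, e2]
  exact slot_comm A B hAB f

end Vale.Agent.Lib.P335.H26G
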